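import Vale.Agent.P038.Defs
import Mathlib

/-!
# P038 (H975): the min-cut comparison (unweighted), after helper362 / helper391 / helper357
-/

namespace Vale.Agent.P038.H975

open Finset

variable {V : Type*} [Fintype V] [DecidableEq V]

/-- `mn c K Y = min {c Z : Y ⊆ Z ⊆ K}`. -/
noncomputable def mn (c : Finset V → ℤ) (K Y : Finset V) : ℤ :=
  if h : (Finset.Icc Y K).Nonempty then (Finset.Icc Y K).inf' h c else 0

omit [Fintype V] in
theorem mn_le (c : Finset V → ℤ) {K Y Z : Finset V} (h1 : Y ⊆ Z) (h2 : Z ⊆ K) :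
    mn c K Y ≤ c Z := by
  have hm : Z ∈ Finset.Icc Y K := Finset.mem_Icc.2 ⟨h1, h2⟩
  have hne : (Finset.Icc Y K).Nonempty := ⟨Z, hm⟩
  unfold mn
  rw [dif_pos hne]
  exact Finset.inf'_le c hm

omit [Fintype V] in
theorem mn_ex (c : Finset V → ℤ) {K Y : Finset V} (h : Y ⊆ K) :
    ∃ Z, Y ⊆ Z ∧ Z ⊆ K ∧ mn c K Y = c Z := by
  have hne : (Finset.Icc Y K).Nonempty := ⟨Y, Finset.mem_Icc.2 ⟨Finset.Subset.refl _, h⟩⟩
  obtain ⟨Z, hZ, hZe⟩ := Finset.exists_mem_eq_inf' hne c
  refine ⟨Z, (Finset.mem_Icc.1 hZ).1, (Finset.mem_Icc.1 hZ).2, ?_⟩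
  unfold mn
  rw [dif_pos hne]
  exact hZe

omit [Fintype V] in
theorem mn_mono (c : Finset V → ℤ) {K Y Y' : Finset V} (h : Y ⊆ Y') (h' : Y' ⊆ K) :
    mn c K Y ≤ mn c K Y' := by
  obtain ⟨Z, h1, h2, h3⟩ := mn_ex c h'
  rw [h3]
  exact mn_le c (h.trans h1) h2

omit [Fintype V] in
/-- Decreasing returns. -/
theorem mn_marg (c : Finset V → ℤ) (hc : ∀ A B, c (A ∪ B) + c (A ∩ B) ≤ c A + c B)
    {K K' X X' Y Y' : Finset V} (hK : K' ⊆ K) (hXX : X ⊆ X') (hX' : X' ⊆ K')
    (hXY : X ⊆ Y) (hY : Y ⊆ K) (hY' : Y' ⊆ Y ∪ X') (hYY : Y ⊆ Y') :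
    mn c K Y' - mn c K Y ≤ mn c K' X' - mn c K' X := by
  obtain ⟨Z', h1, h2, h3⟩ := mn_ex c hX'
  obtain ⟨Z, h4, h5, h6⟩ := mn_ex c hY
  have h7 := hc Z' Z
  have h8 : mn c K Y' ≤ c (Z' ∪ Z) := by
    refine mn_le c ?_ (Finset.union_subset (h2.trans hK) h5)
    refine hY'.trans (Finset.union_subset (h4.trans Finset.subset_union_right)
      (h1.trans Finset.subset_union_left))
  have h9 : mn c K' X ≤ c (Z' ∩ Z) := by
    refine mn_le c (Finset.subset_inter (hXX.trans h1) (hXY.trans h4))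
      (Finset.inter_subset_left.trans h2)
  linarith

/-- The key lemma (helper362): submodularity, row optimality and the column Hall condition. -/
theorem key (c : Finset V → ℤ) (hc : ∀ A B, c (A ∪ B) + c (A ∩ B) ≤ c A + c B)
    (Nm : V → Finset V) (B U : V → Finset V) (hBU : ∀ a, B a ⊆ U a)
    (hR : ∀ a S, B a ⊆ S → S ⊆ U a → c (B a) ≤ c S)
    (Bo Uo : V → Finset V)
    (hBo : ∀ a x, x ∈ Bo a ↔ ∀ z ∈ Nm a, x ∈ B z)
    (hUo : ∀ a x, x ∈ Uo a ↔ ∀ z ∈ Nm a, x ∈ U z)
    (hC : ∀ b, ∀ T : Finset V, (∀ a ∈ T, b ∈ U a ∧ b ∉ B a) →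
      T.card ≤ (univ.filter fun a' => b ∈ Uo a' ∧ ∃ z ∈ T, z ∈ Nm a').card) :
    ∑ a, (c (U a) - c (B a)) ≤ ∑ a, (c (Uo a) - c (Bo a)) := by
  have hBoUo : ∀ a, Bo a ⊆ Uo a := fun a x hx =>
    (hUo a x).2 fun z hz => hBU z ((hBo a x).1 hx z hz)
  -- (iii) the intersections are optimal
  have hRo : ∀ a Z, Bo a ⊆ Z → Z ⊆ Uo a → c (Bo a) ≤ c Z := by
    intro a Z hZ1 hZ2
    have hind : ∀ T : Finset V, T ⊆ Nm a →
        c (Z.filter fun x => ∀ z ∈ T, x ∈ B z) ≤ c Z := by
      intro T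
      induction T using Finset.induction_on with
      | empty =>
        intro _
        simp
      | insert z T hz ih =>
        intro hT
        have hzN : z ∈ Nm a := hT (Finset.mem_insert_self _ _)
        have h1 := ih (fun x hx => hT (Finset.mem_insert_of_mem hx))
        set Z' := Z.filter fun x => ∀ z ∈ T, x ∈ B z with hZ'
        have h2 : (Z.filter fun x => ∀ z' ∈ insert z T, x ∈ B z') = Z' ∩ B z := by
          ext x
          rw [hZ', Finset.mem_inter, Finset.mem_filter, Finset.mem_filter]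
          constructor
          · rintro ⟨h3, h4⟩
            exact ⟨⟨h3, fun z' hz' => h4 z' (Finset.mem_insert_of_mem hz')⟩,
              h4 z (Finset.mem_insert_self _ _)⟩
          · rintro ⟨⟨h3, h4⟩, h5⟩
            refine ⟨h3, fun z' hz' => ?_⟩
            rcases Finset.mem_insert.1 hz' with rfl | hz'
            · exact h5
            · exact h4 z' hz'
        rw [h2]
        have h3 := hc Z' (B z)
        have h4 : c (B z) ≤ c (Z' ∪ B z) := by
          refine hR z _ Finset.subset_union_right (Finset.union_subset ?_ (hBU z))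
          intro x hx
          exact (hUo a x).1 (hZ2 (Finset.mem_filter.1 hx).1) z hzN
        linarith
    have h1 := hind (Nm a) (Finset.Subset.refl _)
    have h2 : (Z.filter fun x => ∀ z ∈ Nm a, x ∈ B z) = Bo a := by
      ext x
      rw [Finset.mem_filter, ← hBo]
      exact ⟨fun h => h.2, fun h => ⟨hZ1 h, h⟩⟩
    rw [h2] at h1
    exact h1
  -- the greedy marginals
  let Φ : Finset V → V → ℤ := fun W a => mn c (U a) (B a ∪ (U a ∩ W))
  let Ψ : Finset V → V → ℤ := fun W a => mn c (Uo a) (Bo a ∪ (Uo a ∩ W))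
  have hstep : ∀ (W : Finset V) (b : V),
      ∑ a, (Φ (insert b W) a - Φ W a) ≤ ∑ a, (Ψ (insert b W) a - Ψ W a) := by
    intro W b
    set Gb : Finset V := univ.filter fun a => b ∈ U a ∧ b ∉ B a with hGb
    have hzero : ∀ a, a ∉ Gb → Φ (insert b W) a - Φ W a = 0 := by
      intro a ha
      have h1 : B a ∪ (U a ∩ insert b W) = B a ∪ (U a ∩ W) := by
        ext x
        simp only [Finset.mem_union, Finset.mem_inter, Finset.mem_insert]
        constructor
        · rintro (h | ⟨h, rfl | h'⟩)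
          · exact Or.inl h
          · left
            by_contra hx
            exact ha (by rw [hGb, Finset.mem_filter]; exact ⟨Finset.mem_univ _, h, hx⟩)
          · exact Or.inr ⟨h, h'⟩
        · rintro (h | ⟨h, h'⟩)
          · exact Or.inl h
          · exact Or.inr ⟨h, Or.inr h'⟩
      show mn c (U a) (B a ∪ (U a ∩ insert b W)) - mn c (U a) (B a ∪ (U a ∩ W)) = 0
      rw [h1, sub_self]
    have hmnn : ∀ a, 0 ≤ Ψ (insert b W) a - Ψ W a := by
      intro a
      have h1 : Ψ W a ≤ Ψ (insert b W) a := by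
        refine mn_mono c ?_ (Finset.union_subset (hBoUo a) Finset.inter_subset_left)
        exact Finset.union_subset_union (Finset.Subset.refl _)
          (Finset.inter_subset_inter (Finset.Subset.refl _) (Finset.subset_insert _ _))
      linarith
    have hcomp : ∀ a z, z ∈ Nm a → b ∈ Uo a →
        Φ (insert b W) z - Φ W z ≤ Ψ (insert b W) a - Ψ W a := by
      intro a z hz hb
      have hUU : Uo a ⊆ U z := fun x hx => (hUo a x).1 hx z hz
      have hBB : Bo a ⊆ B z := fun x hx => (hBo a x).1 hx z hz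
      refine mn_marg c hc hUU ?_ ?_ ?_ ?_ ?_ ?_
      · exact Finset.union_subset_union (Finset.Subset.refl _)
          (Finset.inter_subset_inter (Finset.Subset.refl _) (Finset.subset_insert _ _))
      · exact Finset.union_subset (hBoUo a) Finset.inter_subset_left
      · exact Finset.union_subset_union hBB (Finset.inter_subset_inter hUU (Finset.Subset.refl _))
      · exact Finset.union_subset (hBU z) Finset.inter_subset_left
      · intro x hx
        simp only [Finset.mem_union, Finset.mem_inter, Finset.mem_insert] at hx ⊢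
        rcases hx with h | ⟨h, rfl | h'⟩
        · exact Or.inl (Or.inl h)
        · exact Or.inr (Or.inr ⟨hb, Or.inl rfl⟩)
        · exact Or.inl (Or.inr ⟨h, h'⟩)
      · exact Finset.union_subset_union (Finset.Subset.refl _)
          (Finset.inter_subset_inter (Finset.Subset.refl _) (Finset.subset_insert _ _))
    -- Hall
    let t : {a // a ∈ Gb} → Finset V := fun a =>
      univ.filter fun a' => b ∈ Uo a' ∧ a.1 ∈ Nm a'
    have hHall : ∀ s : Finset {a // a ∈ Gb}, s.card ≤ (s.biUnion t).card := by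
      intro s
      have h1 := hC b (s.map (Function.Embedding.subtype _)) (by
        intro a ha
        obtain ⟨⟨a', ha'⟩, -, rfl⟩ := Finset.mem_map.1 ha
        exact (Finset.mem_filter.1 ha').2)
      rw [Finset.card_map] at h1
      refine h1.trans (Finset.card_le_card ?_)
      intro a' ha'
      obtain ⟨-, h2, z, hz, hz'⟩ := Finset.mem_filter.1 ha'
      obtain ⟨z0, hz0, rfl⟩ := Finset.mem_map.1 hz
      refine Finset.mem_biUnion.2 ⟨z0, hz0, Finset.mem_filter.2 ⟨Finset.mem_univ _, h2, ?_⟩⟩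
      exact hz'
    obtain ⟨f, hf, hft⟩ := (Finset.all_card_le_biUnion_card_iff_exists_injective t).1 hHall
    have h1 : ∑ a, (Φ (insert b W) a - Φ W a) = ∑ a : {a // a ∈ Gb},
        (Φ (insert b W) a.1 - Φ W a.1) := by
      rw [Finset.sum_coe_sort Gb (fun a => Φ (insert b W) a - Φ W a)]
      exact (Finset.sum_subset (Finset.subset_univ _) fun a _ ha => hzero a ha).symm
    rw [h1]
    have h2 : ∑ a : {a // a ∈ Gb}, (Φ (insert b W) a.1 - Φ W a.1) ≤
        ∑ a : {a // a ∈ Gb}, (Ψ (insert b W) (f a) - Ψ W (f a)) := by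
      refine Finset.sum_le_sum fun a _ => ?_
      have h3 := Finset.mem_filter.1 (hft a)
      exact hcomp (f a) a.1 h3.2.2 h3.2.1
    refine h2.trans ?_
    rw [← Finset.sum_image (f := fun a' => Ψ (insert b W) a' - Ψ W a')
      (g := f) (s := Finset.univ) (fun x _ y _ h => hf h)]
    exact Finset.sum_le_sum_of_subset_of_nonneg (Finset.subset_univ _) fun a _ _ => hmnn a
  have hall : ∀ W : Finset V, ∑ a, (Φ W a - Φ ∅ a) ≤ ∑ a, (Ψ W a - Ψ ∅ a) := by
    intro W
    induction W using Finset.induction_on with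
    | empty => simp
    | insert b W _ ih =>
      have h1 := hstep W b
      simp only [Finset.sum_sub_distrib] at h1 ih ⊢
      linarith
  have h1 := hall Finset.univ
  have e1 : ∀ a, Φ Finset.univ a = c (U a) := by
    intro a
    have h2 : B a ∪ (U a ∩ Finset.univ) = U a := by
      rw [Finset.inter_univ]
      exact Finset.union_eq_right.2 (hBU a)
    show mn c (U a) (B a ∪ (U a ∩ Finset.univ)) = c (U a)
    rw [h2]
    obtain ⟨Z, h3, h4, h5⟩ := mn_ex c (Finset.Subset.refl (U a))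
    rw [h5, Finset.Subset.antisymm h4 h3]
  have e2 : ∀ a, Ψ Finset.univ a = c (Uo a) := by
    intro a
    have h2 : Bo a ∪ (Uo a ∩ Finset.univ) = Uo a := by
      rw [Finset.inter_univ]
      exact Finset.union_eq_right.2 (hBoUo a)
    show mn c (Uo a) (Bo a ∪ (Uo a ∩ Finset.univ)) = c (Uo a)
    rw [h2]
    obtain ⟨Z, h3, h4, h5⟩ := mn_ex c (Finset.Subset.refl (Uo a))
    rw [h5, Finset.Subset.antisymm h4 h3]
  have e3 : ∀ a, Φ ∅ a = c (B a) := by
    intro a
    show mn c (U a) (B a ∪ (U a ∩ ∅)) = c (B a)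
    rw [Finset.inter_empty, Finset.union_empty]
    refine le_antisymm (mn_le c (Finset.Subset.refl _) (hBU a)) ?_
    obtain ⟨Z, h3, h4, h5⟩ := mn_ex c (hBU a)
    rw [h5]
    exact hR a Z h3 h4
  have e4 : ∀ a, Ψ ∅ a = c (Bo a) := by
    intro a
    show mn c (Uo a) (Bo a ∪ (Uo a ∩ ∅)) = c (Bo a)
    rw [Finset.inter_empty, Finset.union_empty]
    refine le_antisymm (mn_le c (Finset.Subset.refl _) (hBoUo a)) ?_
    obtain ⟨Z, h3, h4, h5⟩ := mn_ex c (hBoUo a)
    rw [h5]
    exact hRo a Z h3 h4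
  simp only [e1, e2, e3, e4] at h1
  exact h1

end Vale.Agent.P038.H975
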