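import Vale.Agent.P038.H975.Main
import Vale.Agent.P038.H71.Plan

/-!
# P038 (H975): Seymour's second neighbourhood conjecture
-/

namespace Vale.Agent.P038.H975

open Finset Vale.Agent.P038.H139 Vale.Agent.P038.H71

universe u

theorem W_one {V : Type u} (S : Finset V) : W (fun _ => (1 : ℝ)) S = (S.card : ℝ) := by
  simp [W]

theorem Fw_one {V : Type u} [Fintype V] (D : OGraph V) (v : V) :
    1 ≤ Fw 1 D (fun _ => (1 : ℝ)) v ↔ (N2 D v).card < (N1 D v).card := by
  unfold Fw
  rw [W_one, W_one]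
  constructor
  · intro h
    have h1 : ((N2 D v).card : ℝ) + 1 ≤ ((N1 D v).card : ℝ) := by linarith
    exact_mod_cast h1
  · intro h
    have h1 : ((N2 D v).card : ℝ) + 1 ≤ ((N1 D v).card : ℝ) := by exact_mod_cast h
    linarith

/-- (G) of helper294 (unweighted): in a counterexample with the fewest arcs, every set `X` with
`L = N⁺(X) \ X` nonempty has `|N⁺[L] \ X| < 2 |L|`. -/
theorem setrow {V : Type u} [Fintype V] [DecidableEq V] (D : OGraph V)
    (hD : ∀ v, (N2 D v).card < (N1 D v).card)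
    (hmin : ∀ D' : OGraph V, (∀ v, (N2 D' v).card < (N1 D' v).card) → numArcs D ≤ numArcs D')
    (X : Finset V) (hX : (Lx D X).Nonempty) :
    (cl D (Lx D X) \ X).card < 2 * (Lx D X).card := by
  classical
  set L := Lx D X with hL
  set d := dd 1 D (fun _ => (1 : ℝ)) X with hd
  have hmax : ∀ T, T ⊆ L → (∀ S, S ⊆ L → d T ≤ d S) → T = L := by
    intro T hT hTmin
    by_contra hne
    have hall := del_rows (lam := 1) (D := D) (w := fun _ => (1 : ℝ)) (fun _ => zero_le_one)
      (fun v => (Fw_one D v).2 (hD v)) X T hT (fun S _ hS => hTmin S hS)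
    have h2 := hmin _ (fun v => (Fw_one _ v).1 (hall v))
    obtain ⟨z, hzL, hzT⟩ : ∃ z ∈ L, z ∉ T := by
      by_contra hc
      push Not at hc
      exact hne (Finset.Subset.antisymm hT hc)
    have hzL' : z ∈ outS D X \ X := hzL
    obtain ⟨y, hy, hyz⟩ := mem_outS.1 (Finset.mem_sdiff.1 hzL').1
    have h3 := numArcs_lt_del (D := D) (Z := Lx D X \ T) hy (Finset.mem_sdiff.2 ⟨hzL, hzT⟩) hyz
    omega
  obtain ⟨T0, hT0, hT0min⟩ := Finset.exists_min_image L.powerset d ⟨∅, Finset.empty_mem_powerset _⟩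
  have h1 := hmax T0 (Finset.mem_powerset.1 hT0) (fun S hS => hT0min S (Finset.mem_powerset.2 hS))
  subst h1
  have h2 : d L < d ∅ := by
    by_contra hcon
    push Not at hcon
    have h3 := hmax ∅ (Finset.empty_subset _) (fun S hS =>
      hcon.trans (hT0min S (Finset.mem_powerset.2 hS)))
    exact hX.ne_empty h3.symm
  have h4 : cl D (∅ : Finset V) \ X = ∅ := by
    ext z
    simp [mem_cl]
  rw [hd] at h2
  unfold dd at h2
  rw [h4] at h2
  simp only [W_one, Finset.card_empty, Nat.cast_zero, mul_zero, sub_zero] at h2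
  have h5 : ((cl D L \ X).card : ℝ) < 2 * (L.card : ℝ) := by linarith
  exact_mod_cast h5

/-- Seymour's second neighbourhood conjecture. -/
theorem seymour {V : Type u} [Fintype V] [Nonempty V] (D : OGraph V) :
    ∃ v, (N1 D v).card ≤ (N2 D v).card := by
  classical
  by_contra hcon
  push Not at hcon
  -- a counterexample with the fewest arcs
  obtain ⟨D0, hD0, hmin⟩ : ∃ D0 : OGraph V, (∀ v, (N2 D0 v).card < (N1 D0 v).card) ∧
      ∀ D' : OGraph V, (∀ v, (N2 D' v).card < (N1 D' v).card) → numArcs D0 ≤ numArcs D' := by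
    have hex : ∃ n, ∃ D' : OGraph V, (∀ v, (N2 D' v).card < (N1 D' v).card) ∧ numArcs D' = n :=
      ⟨_, D, hcon, rfl⟩
    obtain ⟨D0, h0, h1⟩ := Nat.find_spec hex
    refine ⟨D0, h0, fun D' h' => ?_⟩
    rw [h1]
    exact Nat.find_min' hex ⟨D', h', rfl⟩
  let N : V → Finset V := fun v => insert v (N1 D0 v)
  have hN : ∀ v x, x ∈ N v ↔ x = v ∨ D0.arc v x := fun v x => by
    simp [N, mem_N1]
  have hclo : ∀ S, clo N S = cl D0 S := by
    intro S
    ext x
    rw [mem_clo, mem_cl]
    constructor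
    · rintro ⟨y, hy, hxy⟩
      rcases (hN y x).1 hxy with rfl | h
      · exact Or.inl hy
      · exact Or.inr ⟨y, hy, h⟩
    · rintro (h | ⟨y, hy, h⟩)
      · exact ⟨x, h, (hN x x).2 (Or.inl rfl)⟩
      · exact ⟨y, hy, (hN y x).2 (Or.inr h)⟩
  refine core N (fun v => (hN v v).2 (Or.inl rfl)) ?_ ?_ ?_
  · intro a b hb ha
    rcases (hN a b).1 hb with h | h
    · exact h.symm
    · rcases (hN b a).1 ha with h' | h'
      · exact h'
      · exact absurd h' (D0.asymm a b h)
  · intro X hX
    have hdisj : Disjoint X (Lx D0 X) := Finset.disjoint_sdiff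
    have e1 : cl D0 X = X ∪ Lx D0 X := by
      ext x
      rw [mem_cl, Finset.mem_union, Lx, Finset.mem_sdiff, mem_outS]
      tauto
    have hLne : (Lx D0 X).Nonempty := by
      rw [Finset.nonempty_iff_ne_empty]
      intro h
      apply hX
      rw [hclo, e1, h, Finset.union_empty]
    have h1 := setrow D0 hD0 hmin X hLne
    have e2 : cl D0 (cl D0 X) = X ∪ (cl D0 (Lx D0 X) \ X) := by
      have hL : ∀ x, x ∈ Lx D0 X ↔ (∃ y ∈ X, D0.arc y x) ∧ x ∉ X := fun x => by
        rw [Lx, Finset.mem_sdiff, mem_outS]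
      ext x
      rw [Finset.mem_union, Finset.mem_sdiff, mem_cl (S := cl D0 X), mem_cl (S := Lx D0 X)]
      constructor
      · rintro (h | ⟨y, hy, hyx⟩)
        · rw [e1] at h
          rcases Finset.mem_union.1 h with h | h
          · exact Or.inl h
          · exact Or.inr ⟨Or.inl h, ((hL x).1 h).2⟩
        · rw [e1] at hy
          by_cases hx : x ∈ X
          · exact Or.inl hx
          · rcases Finset.mem_union.1 hy with hy | hy
            · exact Or.inr ⟨Or.inl ((hL x).2 ⟨⟨y, hy, hyx⟩, hx⟩), hx⟩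
            · exact Or.inr ⟨Or.inr ⟨y, hy, hyx⟩, hx⟩
      · rintro (h | ⟨h | ⟨y, hy, hyx⟩, hx⟩)
        · left
          rw [e1]
          exact Finset.mem_union_left _ h
        · left
          rw [e1]
          exact Finset.mem_union_right _ h
        · right
          refine ⟨y, ?_, hyx⟩
          rw [e1]
          exact Finset.mem_union_right _ hy
    have c1 : (cl D0 X).card = X.card + (Lx D0 X).card := by
      rw [e1]
      exact Finset.card_union_of_disjoint hdisj
    have c2 : (cl D0 (cl D0 X)).card = X.card + (cl D0 (Lx D0 X) \ X).card := by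
      rw [e2]
      exact Finset.card_union_of_disjoint Finset.disjoint_sdiff
    unfold cc
    rw [hclo, hclo, c1, c2]
    push_cast
    have h2 : ((cl D0 (Lx D0 X) \ X).card : ℤ) < 2 * ((Lx D0 X).card : ℤ) := by exact_mod_cast h1
    linarith
  · intro a
    have h1 : 0 < (N1 D0 a).card := lt_of_le_of_lt (Nat.zero_le _) (hD0 a)
    obtain ⟨b, hb⟩ := Finset.card_pos.1 h1
    have h2 := mem_N1.1 hb
    refine ⟨b, (hN a b).2 (Or.inr h2), ?_⟩
    rintro rfl
    exact D0.loopless _ h2

end Vale.Agent.P038.H975
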