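import Vale.Agent.P038.H975.Core

/-!
# P038 (H975): no oriented graph has all set rows strict
-/

namespace Vale.Agent.P038.H975

open Finset

variable {V : Type*} [Fintype V] [DecidableEq V]

/-- The closed out-neighbourhood of a set. -/
def clo (N : V → Finset V) (S : Finset V) : Finset V := S.biUnion N

/-- `|N[S]| - |S|`. -/
def cc (N : V → Finset V) (S : Finset V) : ℤ := ((clo N S).card : ℤ) - (S.card : ℤ)

omit [Fintype V] in
theorem mem_clo {N : V → Finset V} {S : Finset V} {x : V} :
    x ∈ clo N S ↔ ∃ y ∈ S, x ∈ N y := by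
  simp [clo]

omit [Fintype V] in
theorem clo_union (N : V → Finset V) (A B : Finset V) : clo N (A ∪ B) = clo N A ∪ clo N B := by
  ext x
  simp only [mem_clo, Finset.mem_union]
  constructor
  · rintro ⟨y, h | h, hy⟩
    · exact Or.inl ⟨y, h, hy⟩
    · exact Or.inr ⟨y, h, hy⟩
  · rintro (⟨y, h, hy⟩ | ⟨y, h, hy⟩)
    · exact ⟨y, Or.inl h, hy⟩
    · exact ⟨y, Or.inr h, hy⟩

omit [Fintype V] in
theorem clo_mono (N : V → Finset V) {A B : Finset V} (h : A ⊆ B) : clo N A ⊆ clo N B := by
  intro x hx
  obtain ⟨y, hy, hxy⟩ := mem_clo.1 hx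
  exact mem_clo.2 ⟨y, h hy, hxy⟩

omit [Fintype V] in
theorem cc_sub (N : V → Finset V) (A B : Finset V) :
    cc N (A ∪ B) + cc N (A ∩ B) ≤ cc N A + cc N B := by
  have h1 := Finset.card_union_add_card_inter A B
  have h2 := Finset.card_union_add_card_inter (clo N A) (clo N B)
  have h3 : (clo N (A ∩ B)).card ≤ (clo N A ∩ clo N B).card :=
    Finset.card_le_card (Finset.subset_inter (clo_mono N Finset.inter_subset_left)
      (clo_mono N Finset.inter_subset_right))
  unfold cc
  rw [clo_union]
  omega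

/-- Counting pairs: if `b ∈ R a ↔ a ∉ S b` off the diagonal and both are reflexive, then
`∑ |R a| + ∑ |S b| = n² + n`. -/
theorem count_le (R S : V → Finset V) (h : ∀ a b, b ∈ R a → a ∈ S b → a = b) :
    ∑ a, ((R a).card : ℤ) + ∑ b, ((S b).card : ℤ) ≤
      (Fintype.card V : ℤ) * Fintype.card V + Fintype.card V := by
  classical
  have h1 : ∑ a, ((R a).card : ℤ) = ∑ a, ∑ b, (if b ∈ R a then (1 : ℤ) else 0) := by
    refine Finset.sum_congr rfl fun a _ => ?_
    rw [Finset.sum_boole]
    congr 2
    ext x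
    simp
  have h2 : ∑ b, ((S b).card : ℤ) = ∑ a, ∑ b, (if a ∈ S b then (1 : ℤ) else 0) := by
    rw [Finset.sum_comm]
    refine Finset.sum_congr rfl fun a _ => ?_
    rw [Finset.sum_boole]
    congr 2
    ext x
    simp
  rw [h1, h2, ← Finset.sum_add_distrib]
  have h3 : ∀ a : V, ∑ b, (if b ∈ R a then (1 : ℤ) else 0) + ∑ b, (if a ∈ S b then (1 : ℤ) else 0)
      ≤ (Fintype.card V : ℤ) + 1 := by
    intro a
    rw [← Finset.sum_add_distrib]
    have h4 : ∀ b : V, ((if b ∈ R a then (1 : ℤ) else 0) + (if a ∈ S b then (1 : ℤ) else 0)) ≤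
        1 + (if b = a then (1 : ℤ) else 0) := by
      intro b
      by_cases h7 : b = a
      · rw [if_pos h7]
        split_ifs <;> norm_num
      · rw [if_neg h7]
        split_ifs with h5 h6 h6
        · exact absurd (h a b h5 h6).symm h7
        all_goals norm_num
    refine (Finset.sum_le_sum fun b _ => h4 b).trans ?_
    rw [Finset.sum_add_distrib]
    simp
  refine (Finset.sum_le_sum fun a _ => h3 a).trans ?_
  rw [Finset.sum_const, Finset.card_univ, nsmul_eq_mul]
  linarith

theorem count_eq (R S : V → Finset V) (h : ∀ a b, a ≠ b → (b ∈ R a ↔ a ∉ S b))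
    (hR : ∀ a, a ∈ R a) (hS : ∀ a, a ∈ S a) :
    ∑ a, ((R a).card : ℤ) + ∑ b, ((S b).card : ℤ) =
      (Fintype.card V : ℤ) * Fintype.card V + Fintype.card V := by
  classical
  have h1 : ∑ a, ((R a).card : ℤ) = ∑ a, ∑ b, (if b ∈ R a then (1 : ℤ) else 0) := by
    refine Finset.sum_congr rfl fun a _ => ?_
    rw [Finset.sum_boole]
    congr 2
    ext x
    simp
  have h2 : ∑ b, ((S b).card : ℤ) = ∑ a, ∑ b, (if a ∈ S b then (1 : ℤ) else 0) := by
    rw [Finset.sum_comm]
    refine Finset.sum_congr rfl fun a _ => ?_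
    rw [Finset.sum_boole]
    congr 2
    ext x
    simp
  rw [h1, h2, ← Finset.sum_add_distrib]
  have h3 : ∀ a : V, ∑ b, (if b ∈ R a then (1 : ℤ) else 0) + ∑ b, (if a ∈ S b then (1 : ℤ) else 0)
      = (Fintype.card V : ℤ) + 1 := by
    intro a
    rw [← Finset.sum_add_distrib]
    have h4 : ∀ b : V, ((if b ∈ R a then (1 : ℤ) else 0) + (if a ∈ S b then (1 : ℤ) else 0)) =
        1 + (if b = a then (1 : ℤ) else 0) := by
      intro b
      by_cases h7 : b = a
      · subst h7
        simp [hR, hS]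
      · have h8 := h a b (fun he => h7 he.symm)
        by_cases h6 : a ∈ S b
        · have h9 : b ∉ R a := fun h10 => (h8.1 h10) h6
          simp [h6, h7, h9]
        · have h9 : b ∈ R a := h8.2 h6
          simp [h6, h7, h9]
    rw [Finset.sum_congr rfl fun b _ => h4 b, Finset.sum_add_distrib]
    simp
  rw [Finset.sum_congr rfl fun a _ => h3 a, Finset.sum_const, Finset.card_univ, nsmul_eq_mul]
  ring

/-- No oriented graph satisfies (G) strictly. -/
theorem core [Nonempty V] (N : V → Finset V) (hN : ∀ v, v ∈ N v)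
    (hor : ∀ a b, b ∈ N a → a ∈ N b → a = b)
    (hG : ∀ X, clo N X ≠ X → cc N (clo N X) < cc N X)
    (hout : ∀ a, ∃ b ∈ N a, b ≠ a) : False := by
  classical
  have hsub : ∀ S, S ⊆ clo N S := fun S x hx => mem_clo.2 ⟨x, hx, hN x⟩
  have hGw : ∀ X, cc N (clo N X) ≤ cc N X := by
    intro X
    by_cases h : clo N X = X
    · rw [h]
    · exact (hG X h).le
  -- admissible pairs
  let F0 : Finset ((V → Finset V) × (V → Finset V)) := univ.filter fun p =>
    (∀ a, N a ⊆ p.1 a) ∧ (∀ a, N a ⊆ p.2 a) ∧ ∀ a b, b ∈ p.1 a → a ∈ p.2 b → a = b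
  have hF0 : (N, N) ∈ F0 := Finset.mem_filter.2 ⟨Finset.mem_univ _,
    fun a => Finset.Subset.refl _, fun a => Finset.Subset.refl _, hor⟩
  obtain ⟨⟨B, C⟩, hBC, hmin⟩ := Finset.exists_min_image F0
    (fun p => ∑ a, (cc N (p.1 a) + cc N (p.2 a))) ⟨_, hF0⟩
  obtain ⟨-, hNB, hNC, hdis⟩ := Finset.mem_filter.1 hBC
  change ∀ a, N a ⊆ B a at hNB
  change ∀ a, N a ⊆ C a at hNC
  change ∀ a b, b ∈ B a → a ∈ C b → a = b at hdis
  have hmin' : ∀ B' C' : V → Finset V, (∀ a, N a ⊆ B' a) → (∀ a, N a ⊆ C' a) →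
      (∀ a b, b ∈ B' a → a ∈ C' b → a = b) →
      ∑ a, (cc N (B a) + cc N (C a)) ≤ ∑ a, (cc N (B' a) + cc N (C' a)) := by
    intro B' C' h1 h2 h3
    exact hmin (B', C') (Finset.mem_filter.2 ⟨Finset.mem_univ _, h1, h2, h3⟩)
  let U : V → Finset V := fun a => univ.filter fun b => a ∉ C b ∨ b = a
  have hU : ∀ a b, b ∈ U a ↔ a ∉ C b ∨ b = a := fun a b => by simp [U]
  let Nm : V → Finset V := fun a => univ.filter fun z => a ∈ N z
  have hNm : ∀ a z, z ∈ Nm a ↔ a ∈ N z := fun a z => by simp [Nm]
  let Bo : V → Finset V := fun a => univ.filter fun x => ∀ z ∈ Nm a, x ∈ B z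
  have hBo : ∀ a x, x ∈ Bo a ↔ ∀ z ∈ Nm a, x ∈ B z := fun a x => by simp [Bo]
  let Uo : V → Finset V := fun a => univ.filter fun x => ∀ z ∈ Nm a, x ∈ U z
  have hUo : ∀ a x, x ∈ Uo a ↔ ∀ z ∈ Nm a, x ∈ U z := fun a x => by simp [Uo]
  let Co : V → Finset V := fun a => univ.filter fun x => ∀ z ∈ Nm a, x ∈ C z
  have hCo : ∀ a x, x ∈ Co a ↔ ∀ z ∈ Nm a, x ∈ C z := fun a x => by simp [Co]
  have hBU : ∀ a, B a ⊆ U a := by
    intro a b hb
    rw [hU]
    by_cases h : b = a
    · exact Or.inr h
    · exact Or.inl fun h' => h (hdis a b hb h').symm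
  -- row optimality
  have hR : ∀ a S, B a ⊆ S → S ⊆ U a → cc N (B a) ≤ cc N S := by
    intro a S h1 h2
    have h3 := hmin' (Function.update B a S) C (by
      intro x
      by_cases h : x = a
      · subst h
        rw [Function.update_self]
        exact (hNB x).trans h1
      · rw [Function.update_of_ne h]
        exact hNB x) hNC (by
      intro x b hb hx
      by_cases h : x = a
      · subst h
        rw [Function.update_self] at hb
        rcases (hU x b).1 (h2 hb) with h4 | h4
        · exact absurd hx h4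
        · exact h4.symm
      · rw [Function.update_of_ne h] at hb
        exact hdis x b hb hx)
    rw [Finset.sum_add_distrib, Finset.sum_add_distrib] at h3
    have h4 : ∑ x, cc N (B x) ≤ ∑ x, cc N (Function.update B a S x) := by linarith
    have h5 : ∀ F : V → Finset V, ∑ x, cc N (F x) = cc N (F a) + ∑ x ∈ univ.erase a, cc N (F x) :=
      fun F => (Finset.add_sum_erase _ _ (Finset.mem_univ a)).symm
    rw [h5 B, h5 (Function.update B a S), Function.update_self] at h4
    have h6 : ∑ x ∈ univ.erase a, cc N (Function.update B a S x) =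
        ∑ x ∈ univ.erase a, cc N (B x) :=
      Finset.sum_congr rfl fun x hx => by
        rw [Function.update_of_ne (Finset.ne_of_mem_erase hx)]
    linarith
  -- column optimality
  have hRC : ∀ b S, C b ⊆ S → (∀ a ∈ S, b ∈ B a → a = b) → cc N (C b) ≤ cc N S := by
    intro a S h1 h2
    have h3 := hmin' B (Function.update C a S) hNB (by
      intro x
      by_cases h : x = a
      · subst h
        rw [Function.update_self]
        exact (hNC x).trans h1
      · rw [Function.update_of_ne h]
        exact hNC x) (by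
      intro x b hb hx
      by_cases h : b = a
      · subst h
        rw [Function.update_self] at hx
        exact h2 x hx hb
      · rw [Function.update_of_ne h] at hx
        exact hdis x b hb hx)
    rw [Finset.sum_add_distrib, Finset.sum_add_distrib] at h3
    have h4 : ∑ x, cc N (C x) ≤ ∑ x, cc N (Function.update C a S x) := by linarith
    have h5 : ∀ F : V → Finset V, ∑ x, cc N (F x) = cc N (F a) + ∑ x ∈ univ.erase a, cc N (F x) :=
      fun F => (Finset.add_sum_erase _ _ (Finset.mem_univ a)).symm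
    rw [h5 C, h5 (Function.update C a S), Function.update_self] at h4
    have h6 : ∑ x ∈ univ.erase a, cc N (Function.update C a S x) =
        ∑ x ∈ univ.erase a, cc N (C x) :=
      Finset.sum_congr rfl fun x hx => by
        rw [Function.update_of_ne (Finset.ne_of_mem_erase hx)]
    linarith
  have hC : ∀ b, ∀ T : Finset V, (∀ a ∈ T, b ∈ U a ∧ b ∉ B a) →
      T.card ≤ (univ.filter fun a' => b ∈ Uo a' ∧ ∃ z ∈ T, z ∈ Nm a').card := by
    intro b T hT
    have hTC : Disjoint (C b) T := by
      rw [Finset.disjoint_left]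
      intro a ha haT
      obtain ⟨h1, h2⟩ := hT a haT
      rcases (hU a b).1 h1 with h3 | h3
      · exact h3 ha
      · subst h3
        exact h2 (hNB b (hN b))
    have h1 := hRC b (C b ∪ T) Finset.subset_union_left (by
      intro a ha hb
      rcases Finset.mem_union.1 ha with h | h
      · exact hdis a b hb h
      · exact absurd hb (hT a h).2)
    have h2 : (C b ∪ T).card = (C b).card + T.card := Finset.card_union_of_disjoint hTC
    have h3 : clo N (C b ∪ T) = clo N (C b) ∪ (clo N T \ clo N (C b)) := by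
      rw [clo_union, Finset.union_sdiff_self_eq_union]
    have h4 : (clo N (C b ∪ T)).card = (clo N (C b)).card + (clo N T \ clo N (C b)).card := by
      rw [h3]
      exact Finset.card_union_of_disjoint Finset.disjoint_sdiff
    have h5 : T.card ≤ (clo N T \ clo N (C b)).card := by
      unfold cc at h1
      rw [h2, h4] at h1
      push_cast at h1
      have : (T.card : ℤ) ≤ ((clo N T \ clo N (C b)).card : ℤ) := by linarith
      exact_mod_cast this
    refine h5.trans (Finset.card_le_card ?_)
    intro a ha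
    obtain ⟨h6, h7⟩ := Finset.mem_sdiff.1 ha
    obtain ⟨z, hz, hza⟩ := mem_clo.1 h6
    refine Finset.mem_filter.2 ⟨Finset.mem_univ _, (hUo a b).2 fun y hy => ?_, z, hz,
      (hNm a z).2 hza⟩
    rw [hU]
    left
    intro h8
    exact h7 (mem_clo.2 ⟨y, h8, (hNm a y).1 hy⟩)
  have hkey := key (cc N) (cc_sub N) Nm B U hBU hR Bo Uo hBo hUo hC
  -- feasibility of the closures of the interiors
  have hfeas : ∀ a b, b ∈ clo N (Uo a) → a ∈ clo N (Co b) → a = b := by
    intro a b hb ha
    obtain ⟨x, hx, hxb⟩ := mem_clo.1 hb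
    obtain ⟨y, hy, hya⟩ := mem_clo.1 ha
    have h1 : x ∈ U y := (hUo a x).1 hx y ((hNm a y).2 hya)
    have h2 : y ∈ C x := (hCo b y).1 hy x ((hNm b x).2 hxb)
    have h3 : x = y := by
      rcases (hU y x).1 h1 with h | h
      · exact absurd h2 h
      · exact h
    subst h3
    have h4 : x ∈ U a := (hUo a x).1 hx a ((hNm a a).2 (hN a))
    have h5 : x = a := by
      rcases (hU a x).1 h4 with h | h
      · exact absurd (hNC x hya) h
      · exact h
    have h6 : x ∈ C b := (hCo b x).1 hy b ((hNm b b).2 (hN b))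
    have h7 : b ∈ U x := hBU x (hNB x hxb)
    have h8 : b = x := by
      rcases (hU x b).1 h7 with h | h
      · exact absurd h6 h
      · exact h
    exact h5.symm.trans h8.symm
  have hBoUo : ∀ a, Bo a ⊆ Uo a := fun a x hx =>
    (hUo a x).2 fun z hz => hBU z ((hBo a x).1 hx z hz)
  have haBo : ∀ a, a ∈ Bo a := fun a => (hBo a a).2 fun z hz => hNB z ((hNm a z).1 hz)
  have haCo : ∀ a, a ∈ Co a := fun a => (hCo a a).2 fun z hz => hNC z ((hNm a z).1 hz)
  -- counting
  have hcount1 := count_eq U C (fun a b hab => by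
    rw [hU]
    constructor
    · rintro (h | h)
      · exact h
      · exact absurd h.symm hab
    · exact fun h => Or.inl h) (fun a => (hU a a).2 (Or.inr rfl)) (fun a => hNC a (hN a))
  have hcount2 := count_eq (fun a => clo N (U a)) Co (fun a b hab => by
    rw [mem_clo]
    constructor
    · rintro ⟨z, hz, hzb⟩ hco
      have h1 := (hCo b a).1 hco
      rcases (hU a z).1 hz with h | h
      · exact h (h1 z ((hNm b z).2 hzb))
      · subst h
        have h2 : z ∈ C b := h1 b ((hNm b b).2 (hN b))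
        exact hab (hdis z b (hNB z hzb) h2)
    · intro hco
      rw [hCo] at hco
      push Not at hco
      obtain ⟨z, hz, hza⟩ := hco
      exact ⟨z, (hU a z).2 (Or.inl hza), (hNm b z).1 hz⟩)
    (fun a => hsub _ ((hU a a).2 (Or.inr rfl))) haCo
  have hcount3 := count_eq Uo (fun b => clo N (C b)) (fun a b hab => by
    rw [mem_clo, hUo]
    constructor
    · rintro h ⟨z, hz, hza⟩
      rcases (hU z b).1 (h z ((hNm a z).2 hza)) with h1 | h1
      · exact h1 hz
      · subst h1
        rcases (hU a b).1 (h a ((hNm a a).2 (hN a))) with h2 | h2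
        · exact h2 (hNC b hza)
        · exact hab h2.symm
    · intro h z hz
      rw [hU]
      left
      intro h1
      exact h ⟨z, h1, (hNm a z).1 hz⟩)
    (fun a => hBoUo a (haBo a)) (fun a => hsub _ (hNC a (hN a)))
  have hcount4 := count_le (fun a => clo N (Uo a)) (fun b => clo N (Co b)) hfeas
  have hE : ∑ a, (cc N (Bo a) + cc N (Co a)) ≤ ∑ a, (cc N (B a) + cc N (C a)) := by
    simp only [Finset.sum_add_distrib, Finset.sum_sub_distrib, cc] at hkey ⊢
    linarith
  have hopt := hmin' (fun a => clo N (Bo a)) (fun a => clo N (Co a))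
    (fun a x hx => mem_clo.2 ⟨a, haBo a, hx⟩) (fun a x hx => mem_clo.2 ⟨a, haCo a, hx⟩)
    (fun a b hb ha => hfeas a b (clo_mono N (hBoUo a) hb) ha)
  -- strictness
  by_cases hcl : ∀ a, clo N (Bo a) = Bo a
  · -- a minimal nonempty closed set
    obtain ⟨S, hS, hSmin⟩ := Finset.exists_min_image
      ((univ : Finset (Finset V)).filter fun S => S.Nonempty ∧ clo N S = S) Finset.card
      ⟨univ, Finset.mem_filter.2 ⟨Finset.mem_univ _, Finset.univ_nonempty,
        Finset.Subset.antisymm (Finset.subset_univ _) (hsub _)⟩⟩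
    obtain ⟨-, ⟨a, haS⟩, hSc⟩ := Finset.mem_filter.1 hS
    obtain ⟨b, hb, hba⟩ := hout a
    have hbS : b ∈ S := by
      rw [← hSc]
      exact mem_clo.2 ⟨a, haS, hb⟩
    have h1 : clo N (S ∩ Bo b) = S ∩ Bo b := by
      refine Finset.Subset.antisymm (Finset.subset_inter ?_ ?_) (hsub _)
      · exact (clo_mono N Finset.inter_subset_left).trans hSc.le
      · exact (clo_mono N Finset.inter_subset_right).trans (hcl b).le
    have h2 := hSmin (S ∩ Bo b) (Finset.mem_filter.2 ⟨Finset.mem_univ _,
      ⟨b, Finset.mem_inter.2 ⟨hbS, haBo b⟩⟩, h1⟩)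
    have h3 : S ∩ Bo b = S := Finset.eq_of_subset_of_card_le Finset.inter_subset_left h2
    have h4 : a ∈ Bo b := by
      have h5 : a ∈ S ∩ Bo b := by rw [h3]; exact haS
      exact (Finset.mem_inter.1 h5).2
    have h5 : a ∈ B b := (hBo b a).1 h4 b ((hNm b b).2 (hN b))
    exact hba (hdis b a h5 (hNC a hb))
  · push Not at hcl
    obtain ⟨a0, ha0⟩ := hcl
    have hlt : ∑ a, (cc N (clo N (Bo a)) + cc N (clo N (Co a))) <
        ∑ a, (cc N (Bo a) + cc N (Co a)) := by
      refine Finset.sum_lt_sum (fun a _ => ?_) ⟨a0, Finset.mem_univ _, ?_⟩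
      · have h1 := hGw (Bo a)
        have h2 := hGw (Co a)
        linarith
      · have h1 := hG (Bo a0) ha0
        have h2 := hGw (Co a0)
        linarith
    linarith

end Vale.Agent.P038.H975
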